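import Mathlib
import Vale.Agent.P314.Basic

namespace Vale.Agent.Results.P314.LowerBound

open Vale.Agent.P314 Polynomial

variable {F : Type} [Field F] {n : ℕ}

theorem exists_horner (i : Fin n) : ∀ (k : ℕ) (q : F[X]), q.natDegree = k →
    ∃ φ : NCFormula F n, φ.size ≤ 4 * k + 1 ∧ φ.poly = aeval (FreeAlgebra.ι F i) q := by
  intro k
  induction k with
  | zero =>
    intro q hq
    refine ⟨NCFormula.const (q.coeff 0), by simp [NCFormula.size], ?_⟩
    rw [Polynomial.eq_C_of_natDegree_eq_zero hq]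
    simp [NCFormula.poly]
  | succ k ih =>
    intro q hq
    have h1 : (divX q).natDegree = k := by
      rw [Polynomial.natDegree_divX_eq_natDegree_tsub_one, hq]; simp
    obtain ⟨φ, hs, hp⟩ := ih (divX q) h1
    refine ⟨NCFormula.add (NCFormula.mul φ (NCFormula.var i)) (NCFormula.const (q.coeff 0)), ?_, ?_⟩
    · simp only [NCFormula.size]; omega
    · conv_rhs => rw [← Polynomial.divX_mul_X_add q]
      simp [NCFormula.poly, hp]

theorem aeval_ι_ne_zero (i : Fin n) (q : F[X]) (hq : q ≠ 0) :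
    aeval (FreeAlgebra.ι F i) q ≠ 0 := by
  intro h
  apply hq
  have h2 : (FreeAlgebra.lift F (fun _ : Fin n => (X : F[X]))) (aeval (FreeAlgebra.ι F i) q) = q := by
    rw [← Polynomial.aeval_algHom_apply]
    simp
  rw [← h2, h, map_zero]

theorem prod_charpoly (i : Fin n) : ∀ H : List (MatTuple F n),
    ((H.map (fun T : MatTuple F n => (T.mat i).charpoly)).prod).Monic ∧
    ((H.map (fun T : MatTuple F n => (T.mat i).charpoly)).prod).natDegree = (H.map MatTuple.dim).sum := by
  intro H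
  induction H with
  | nil => simp
  | cons T H ih =>
    obtain ⟨h1, h2⟩ := ih
    have hT : ((T.mat i).charpoly).Monic := Matrix.charpoly_monic _
    refine ⟨?_, ?_⟩
    · simpa using hT.mul h1
    · simp only [List.map_cons, List.prod_cons, List.sum_cons]
      rw [hT.natDegree_mul h1, h2, Matrix.charpoly_natDegree_eq_dim]
      simp

theorem result (n s : ℕ) (hn : 0 < n) (H : List (MatTuple F n)) (hH : IsHittingSet H s) :
    s ≤ 4 * (H.map MatTuple.dim).sum := by
  by_contra hlt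
  have hlt' : 4 * (H.map MatTuple.dim).sum < s := not_le.1 hlt
  obtain ⟨hmonic, hdeg⟩ := prod_charpoly (F := F) ⟨0, hn⟩ H
  obtain ⟨φ, hs, hφ⟩ := exists_horner (F := F) ⟨0, hn⟩ _ _ hdeg
  obtain ⟨T, hT, hne⟩ := hH φ (by omega)
    (by rw [hφ]; exact aeval_ι_ne_zero _ _ hmonic.ne_zero)
  apply hne
  rw [hφ, MatTuple.eval, ← Polynomial.aeval_algHom_apply, FreeAlgebra.lift_ι_apply]
  have hdvd : (T.mat ⟨0, hn⟩).charpoly ∣ (H.map (fun T : MatTuple F n => (T.mat ⟨0, hn⟩).charpoly)).prod :=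
    List.dvd_prod (List.mem_map.2 ⟨T, hT, rfl⟩)
  obtain ⟨r, hr⟩ := hdvd
  rw [hr, map_mul, Matrix.aeval_self_charpoly, zero_mul]

end Vale.Agent.Results.P314.LowerBound
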