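import Vale.Agent.Results.P314.A0_BoundedWidth
import Vale.Agent.Results.P314.LowerBound

namespace Vale.Agent.Results.P314.A000_Combined

open Vale.Agent.P314 Matrix

/-- Upper and lower bound for black-box hitting sets of matrix tuples in one statement.

First conjunct: the explicit list `treeHittingSet n w L g` has `n (2w)^L` tuples of dimension
`2 (w+1)^L` and hits every nonzero homogeneous noncommutative ABP of width `w` and depth
`D ≤ 2^L`, in particular every nonzero sum of `w` products of `D` linear forms.

Second conjunct: every hitting set for the formulas of size at most `s` has total matrix dimension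
at least `s / 4`. -/
theorem result :
    (∀ (F : Type) [Field F] (n w L : ℕ) (g : F),
      (treeHittingSet n w L g).length = n * (2 * w) ^ L ∧
      (∀ T ∈ treeHittingSet n w L g, T.dim = 2 * (w + 1) ^ L) ∧
      (0 < n → (∀ i < n * (2 * w) ^ L, ∀ j < n * (2 * w) ^ L, g ^ i = g ^ j → i = j) →
        (∀ (α β : Fin w → F) (μ : ℕ → Fin n → Matrix (Fin w) (Fin w) F) (D : ℕ), D ≤ 2 ^ L →
          abpPoly α β μ D ≠ 0 → ∃ T ∈ treeHittingSet n w L g, T.eval (abpPoly α β μ D) ≠ 0) ∧
        (∀ (c : Fin w → ℕ → Fin n → F) (D : ℕ), D ≤ 2 ^ L →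
          (∑ a : Fin w, ((List.range D).map (fun j => ∑ i, c a j i • FreeAlgebra.ι F i)).prod)
            ≠ 0 →
          ∃ T ∈ treeHittingSet n w L g, T.eval
            (∑ a : Fin w, ((List.range D).map (fun j => ∑ i, c a j i • FreeAlgebra.ι F i)).prod)
              ≠ 0))) ∧
    (∀ (F : Type) [Field F] (n s : ℕ), 0 < n → ∀ H : List (MatTuple F n), IsHittingSet H s →
      s ≤ 4 * (H.map MatTuple.dim).sum) :=
  ⟨fun _ _ n w L g => A0_BoundedWidth.result n w L g,
   fun _ _ n s hn H hH => LowerBound.result n s hn H hH⟩

end Vale.Agent.Results.P314.A000_Combined
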