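import Mathlib
import Vale.Agent.P314.TreeFinal

namespace Vale.Agent.Results.P314.A0_BoundedWidth

open Vale.Agent.P314 Matrix

variable {F : Type} [Field F]

theorem treeBnd_closed (n w : ℕ) : ∀ L, treeBnd n w L = n * (2 * w) ^ L
  | 0 => by simp [treeBnd]
  | L + 1 => by
    simp only [treeBnd]
    rw [treeBnd_closed n w L]
    ring

theorem treeDim_closed (w : ℕ) : ∀ L, treeDim w L = 2 * (w + 1) ^ L
  | 0 => by simp [treeDim]
  | L + 1 => by
    simp only [treeDim]
    rw [treeDim_closed w L]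
    ring

theorem prod_diagonal {w : ℕ} {R : Type} [Semiring R] : ∀ (l : List (Fin w → R)),
    (l.map (fun d => Matrix.diagonal d)).prod
      = Matrix.diagonal (fun a => (l.map (fun d => d a)).prod)
  | [] => by simp
  | d :: l => by
    simp only [List.map_cons, List.prod_cons]
    rw [prod_diagonal l, Matrix.diagonal_mul_diagonal]

theorem sps_eq {n w : ℕ} (c : Fin w → ℕ → Fin n → F) (D : ℕ) :
    abpPoly (fun _ => 1) (fun _ => 1) (fun j i => Matrix.diagonal (fun a => c a j i)) D
      = ∑ a : Fin w, ((List.range D).map (fun j => ∑ i, c a j i • FreeAlgebra.ι F i)).prod := by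
  have h1 : ∀ j, abpLayer (fun i => Matrix.diagonal (fun a => c a j i))
      = Matrix.diagonal (fun a => ∑ i, c a j i • FreeAlgebra.ι F i) := by
    intro j
    ext a b
    simp only [abpLayer, Matrix.diagonal_apply]
    split_ifs <;> simp
  have h2 := prod_diagonal
    ((List.range D).map (fun j => fun a : Fin w => ∑ i, c a j i • FreeAlgebra.ι F i))
  simp only [List.map_map, Function.comp_def] at h2
  simp only [abpPoly, h1, h2, Matrix.diagonal_apply, mul_one, one_smul, Finset.sum_ite_eq,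
    Finset.mem_univ, if_true]

theorem result (n w L : ℕ) (g : F) :
    (treeHittingSet n w L g).length = n * (2 * w) ^ L ∧
    (∀ T ∈ treeHittingSet n w L g, T.dim = 2 * (w + 1) ^ L) ∧
    (0 < n → (∀ i < n * (2 * w) ^ L, ∀ j < n * (2 * w) ^ L, g ^ i = g ^ j → i = j) →
      (∀ (α β : Fin w → F) (μ : ℕ → Fin n → Matrix (Fin w) (Fin w) F) (D : ℕ), D ≤ 2 ^ L →
        abpPoly α β μ D ≠ 0 → ∃ T ∈ treeHittingSet n w L g, T.eval (abpPoly α β μ D) ≠ 0) ∧
      (∀ (c : Fin w → ℕ → Fin n → F) (D : ℕ), D ≤ 2 ^ L →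
        (∑ a : Fin w, ((List.range D).map (fun j => ∑ i, c a j i • FreeAlgebra.ι F i)).prod) ≠ 0 →
        ∃ T ∈ treeHittingSet n w L g, T.eval
          (∑ a : Fin w, ((List.range D).map (fun j => ∑ i, c a j i • FreeAlgebra.ι F i)).prod)
            ≠ 0)) := by
  refine ⟨?_, ?_, ?_⟩
  · simp [treeHittingSet, treeBnd_closed]
  · intro T hT
    obtain ⟨k, _, rfl⟩ := List.mem_map.1 hT
    exact treeDim_closed w L
  · intro hn hg
    rw [← treeBnd_closed] at hg
    refine ⟨fun α β μ D hD hne => tree_hits n w L g hn hg α β μ D hD hne, ?_⟩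
    intro c D hD hne
    rw [← sps_eq] at hne ⊢
    exact tree_hits n w L g hn hg _ _ _ D hD hne

end Vale.Agent.Results.P314.A0_BoundedWidth
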